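import Mathlib

/-! P355: Jacobi's complementary minors for unitary matrices, with and without borders. -/

namespace Vale.Agent.P355.H649

open Matrix

variable {m n : Type} [Fintype m] [Fintype n] [DecidableEq m] [DecidableEq n]

/-- complementary minors of a unitary block matrix -/
theorem jac_block (W : Matrix (m ⊕ n) (m ⊕ n) ℂ) (hW : W * Wᴴ = 1) :
    W.det * star W.toBlocks₁₁.det = W.toBlocks₂₂.det := by
  set A := W.toBlocks₁₁
  set B := W.toBlocks₁₂
  set C := W.toBlocks₂₁
  set D := W.toBlocks₂₂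
  have hWb : W = fromBlocks A B C D := (fromBlocks_toBlocks W).symm
  have h1 : fromBlocks A B C D * (fromBlocks A B C D)ᴴ = 1 := by rw [← hWb]; exact hW
  rw [fromBlocks_conjTranspose, fromBlocks_multiply, ← fromBlocks_one, fromBlocks_inj] at h1
  obtain ⟨h11, -, h21, -⟩ := h1
  have h2 : W * fromBlocks Aᴴ 0 Bᴴ 1 = fromBlocks 1 B 0 D := by
    rw [hWb, fromBlocks_multiply]
    simp only [Matrix.mul_zero, zero_add, Matrix.mul_one]
    rw [h11, h21]
  have h3 := congrArg Matrix.det h2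
  rw [det_mul, det_fromBlocks_zero₁₂, det_fromBlocks_zero₂₁, det_one, det_one, one_mul, mul_one,
    det_conjTranspose] at h3
  exact h3

theorem norm_det (U : Matrix m m ℂ) (hU : U * Uᴴ = 1) : U.det * star U.det = 1 := by
  rw [← det_conjTranspose, ← det_mul, hU, det_one]

/-- reindexing a unitary matrix -/
theorem reindex_unitary {l : Type} [Fintype l] [DecidableEq l] (U : Matrix l l ℂ)
    (hU : U * Uᴴ = 1) (eI eJ : m ≃ l) : U.submatrix eI eJ * (U.submatrix eI eJ)ᴴ = 1 := by
  rw [conjTranspose_submatrix, submatrix_mul_equiv, hU, submatrix_one_equiv]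

/-- determinants of reindexed matrices -/
theorem det_reindex {l : Type} [Fintype l] [DecidableEq l] (U : Matrix l l ℂ) (eI eJ : m ≃ l) :
    (U.submatrix eI eJ).det = (Equiv.Perm.sign (eJ.symm.trans eI) : ℤ) * U.det := by
  have h : U.submatrix eI eJ = (U.submatrix (eJ.symm.trans eI) id).submatrix eJ eJ := by
    ext i j
    simp
  rw [h, det_submatrix_equiv_self, det_permute]

/-- **two pairs of complementary minors** -/
theorem jacobi {l : Type} [Fintype l] [DecidableEq l] (U : Matrix l l ℂ) (hU : U * Uᴴ = 1)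
    (eI eJ fI fJ : m ⊕ n ≃ l) :
    (U.submatrix (fI ∘ Sum.inl) (fJ ∘ Sum.inl)).det *
        star (U.submatrix (eI ∘ Sum.inl) (eJ ∘ Sum.inl)).det =
      ((Equiv.Perm.sign (eJ.symm.trans eI) : ℤ) * (Equiv.Perm.sign (fJ.symm.trans fI) : ℤ) : ℂ) *
        ((U.submatrix (eI ∘ Sum.inr) (eJ ∘ Sum.inr)).det *
          star (U.submatrix (fI ∘ Sum.inr) (fJ ∘ Sum.inr)).det) := by
  have h1 := jac_block _ (reindex_unitary U hU eI eJ)
  have h2 := jac_block _ (reindex_unitary U hU fI fJ)
  have e1 : (U.submatrix eI eJ).toBlocks₁₁ = U.submatrix (eI ∘ Sum.inl) (eJ ∘ Sum.inl) := rfl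
  have e2 : (U.submatrix eI eJ).toBlocks₂₂ = U.submatrix (eI ∘ Sum.inr) (eJ ∘ Sum.inr) := rfl
  have e3 : (U.submatrix fI fJ).toBlocks₁₁ = U.submatrix (fI ∘ Sum.inl) (fJ ∘ Sum.inl) := rfl
  have e4 : (U.submatrix fI fJ).toBlocks₂₂ = U.submatrix (fI ∘ Sum.inr) (fJ ∘ Sum.inr) := rfl
  rw [e1, e2, det_reindex] at h1
  rw [e3, e4, det_reindex] at h2
  rw [← h1, ← h2]
  have h3 := norm_det U hU
  set a := (U.submatrix (eI ∘ Sum.inl) (eJ ∘ Sum.inl)).det
  set b := (U.submatrix (fI ∘ Sum.inl) (fJ ∘ Sum.inl)).det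
  have hs : ∀ u : ℤˣ, ((u : ℤ) : ℂ) * ((u : ℤ) : ℂ) = 1 := by
    intro u
    rcases Int.units_eq_one_or u with rfl | rfl <;> simp
  have hst : ∀ u : ℤˣ, star ((u : ℤ) : ℂ) = ((u : ℤ) : ℂ) := fun u => by simp
  simp only [star_mul', star_star, hst]
  have h4 := hs (Equiv.Perm.sign (eJ.symm.trans eI))
  have h5 := hs (Equiv.Perm.sign (fJ.symm.trans fI))
  set s : ℂ := ((Equiv.Perm.sign (eJ.symm.trans eI) : ℤ) : ℂ)
  set t : ℂ := ((Equiv.Perm.sign (fJ.symm.trans fI) : ℤ) : ℂ)
  calc b * star a = (s * s) * (t * t) * (U.det * star U.det) * (b * star a) := by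
        rw [h4, h5, h3]; ring
    _ = _ := by ring

/-- **bordered form**: the determinants of `X U` and `X` differ by the same factor for all `X` -/
theorem border (U : Matrix m m ℂ) (hU : U * Uᴴ = 1) (X Y : Matrix m m ℂ) :
    (X * U).det * star (Y * U).det = X.det * star Y.det := by
  rw [det_mul, det_mul, star_mul']
  calc X.det * U.det * (star Y.det * star U.det) = (U.det * star U.det) * (X.det * star Y.det) := by
        ring
    _ = _ := by rw [norm_det U hU, one_mul]

end Vale.Agent.P355.H649
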